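import Vale.Agent.P092.RC.Mid

/-!
P092, TEAM C, block [C-PLANE] (helper791): the dual plane `LL k` with the contragredient action:
topology, continuity of the action, incidence, joins and meets.
-/

set_option linter.all false

open scoped LinearAlgebra.Projectivization
open Matrix TopologicalSpace Projectivization

namespace Vale.Agent.P092.H791

open Vale.Agent.P092.RC Vale.Agent.P092.H820

section basic

variable {k : Type} [NontriviallyNormedField k]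

theorem ct_val {m : ℕ} (g : GG k m) : (ct g).1 = (g⁻¹).1ᵀ := rfl

theorem ct_continuous {m : ℕ} : Continuous (ct : GG k m → GG k m) := by
  refine Continuous.subtype_mk ?_ _
  have h : Continuous fun g : GG k m => (g⁻¹).1 := continuous_subtype_val.comp continuous_inv
  exact h.matrix_transpose

theorem ct_ct {m : ℕ} (g : GG k m) : ct (ct g) = g := by
  apply Subtype.ext
  have h : (ct g)⁻¹ = ct g⁻¹ := (map_inv ct g).symm
  rw [ct_val, h, ct_val, inv_inv, transpose_transpose]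

/-- the underlying point of the dual plane -/
def toP (l : LL k) : ℙ k (Fin 3 → k) := l

theorem ll_smul (g : GG k 2) (l : LL k) : toP (g • l) = ct g • toP l := rfl

instance csLL : ContinuousSMul (GG k 2) (LL k) where
  continuous_smul := by
    have h1 : Continuous fun p : GG k 2 × ℙ k (Fin 3 → k) => p.1 • p.2 := continuous_smul
    have h2 : Continuous fun p : GG k 2 × ℙ k (Fin 3 → k) => ((ct p.1 : GG k 2), p.2) :=
      (ct_continuous.comp continuous_fst).prodMk continuous_snd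
    exact h1.comp h2

instance ccsLL : ContinuousConstSMul (GG k 2) (LL k) := inferInstance

instance t2LL : T2Space (LL k) := inferInstanceAs (T2Space (ℙ k (Fin 3 → k)))

instance cptLL [ProperSpace k] : CompactSpace (LL k) :=
  inferInstanceAs (CompactSpace (ℙ k (Fin 3 → k)))

instance tdLL [IsUltrametricDist k] : TotallyDisconnectedSpace (LL k) :=
  inferInstanceAs (TotallyDisconnectedSpace (ℙ k (Fin 3 → k)))

theorem inc_closed : IsClosed (inc : Set (YY k 2 × LL k)) := inc3_closed (k := k)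

theorem pair_eq (g : GG k 2) (v w : Fin 3 → k) : (g.1 *ᵥ v) ⬝ᵥ ((ct g).1 *ᵥ w) = v ⬝ᵥ w := by
  have h : (g⁻¹ : GG k 2).1 * g.1 = 1 := by
    have : (g⁻¹ * g : GG k 2).1 = 1 := by rw [inv_mul_cancel]; rfl
    exact this
  rw [ct_val, Matrix.mulVec_transpose, dotProduct_comm, ← Matrix.dotProduct_mulVec,
    Matrix.mulVec_mulVec, h, Matrix.one_mulVec, dotProduct_comm]

theorem inc_smul (g : GG k 2) (y : YY k 2) (l : LL k) : (g • y, g • l) ∈ inc ↔ (y, l) ∈ inc := by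
  obtain ⟨v, rfl⟩ := pj_surj (k := k) (ι := Fin 3) y
  obtain ⟨w, rfl⟩ := pj_surj (k := k) (ι := Fin 3) l
  change (g.1 *ᵥ v.1) ⬝ᵥ ((ct g).1 *ᵥ w.1) = 0 ↔ v.1 ⬝ᵥ w.1 = 0
  rw [pair_eq]

/-- a common perpendicular -/
theorem perp_exists (v w : Fin 3 → k) : ∃ u : Fin 3 → k, u ≠ 0 ∧ v ⬝ᵥ u = 0 ∧ w ⬝ᵥ u = 0 := by
  let M : Matrix (Fin 3) (Fin 3) k := Matrix.of ![v, w, w]
  have hM : M.det = 0 := Matrix.det_zero_of_row_eq (i := 1) (j := 2) (by decide) rfl
  obtain ⟨u, hu, h⟩ := Matrix.exists_mulVec_eq_zero_iff.2 hM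
  exact ⟨u, hu, congrFun h 0, congrFun h 1⟩

theorem meet (l l' : LL k) : ∃ y : YY k 2, (y, l) ∈ inc ∧ (y, l') ∈ inc := by
  obtain ⟨v, rfl⟩ := pj_surj (k := k) (ι := Fin 3) l
  obtain ⟨w, rfl⟩ := pj_surj (k := k) (ι := Fin 3) l'
  obtain ⟨u, hu, h1, h2⟩ := perp_exists v.1 w.1
  refine ⟨pj k (Fin 3) ⟨u, hu⟩, ?_, ?_⟩
  · change u ⬝ᵥ v.1 = 0
    rw [dotProduct_comm, h1]
  · change u ⬝ᵥ w.1 = 0
    rw [dotProduct_comm, h2]

theorem join (y y' : YY k 2) : ∃ l : LL k, (y, l) ∈ inc ∧ (y', l) ∈ inc := by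
  obtain ⟨v, rfl⟩ := pj_surj (k := k) (ι := Fin 3) y
  obtain ⟨w, rfl⟩ := pj_surj (k := k) (ι := Fin 3) y'
  obtain ⟨u, hu, h1, h2⟩ := perp_exists v.1 w.1
  exact ⟨pj k (Fin 3) ⟨u, hu⟩, h1, h2⟩

theorem uniq (y y' : YY k 2) (l l' : LL k) (hne : y ≠ y') (h1 : (y, l) ∈ inc)
    (h2 : (y', l) ∈ inc) (h3 : (y, l') ∈ inc) (h4 : (y', l') ∈ inc) : l = l' :=
  inc3_uniq (k := k) y y' l l' hne h1 h2 h3 h4

theorem inc3_symm (a c : ℙ k (Fin 3 → k)) (h : (a, c) ∈ inc3) : (c, a) ∈ inc3 (k := k) := by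
  obtain ⟨v, rfl⟩ := pj_surj a
  obtain ⟨w, rfl⟩ := pj_surj c
  have h' : v.1 ⬝ᵥ w.1 = 0 := h
  change w.1 ⬝ᵥ v.1 = 0
  rw [dotProduct_comm, h']

theorem uniq_meet (y y' : YY k 2) (l l' : LL k) (hne : l ≠ l') (h1 : (y, l) ∈ inc)
    (h2 : (y', l) ∈ inc) (h3 : (y, l') ∈ inc) (h4 : (y', l') ∈ inc) : y = y' :=
  inc3_uniq (k := k) l l' y y' hne (inc3_symm _ _ h1) (inc3_symm _ _ h3) (inc3_symm _ _ h2)
    (inc3_symm _ _ h4)

/-- [C-PLANE] -/
theorem planeStmt : PlaneStmt := fun _ _ => ⟨fun g y l h => (inc_smul g y l).2 h, meet⟩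

theorem y0_l0 : ((y0 : YY k 2), (l0 : LL k)) ∈ inc := by
  change (Pi.single 0 1 : Fin 3 → k) ⬝ᵥ (Pi.single 2 1 : Fin 3 → k) = 0
  simp

end basic

end Vale.Agent.P092.H791
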