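import Vale.Agent.P092.H791.LGeo
import Vale.Agent.P092.H200.Coc

/-!
P092, TEAM C, block [C-LGEO] (helper791), unconditional form and the join of two points.
-/

set_option linter.all false

open scoped LinearAlgebra.Projectivization
open Matrix TopologicalSpace Projectivization

namespace Vale.Agent.P092.H791

open Vale.Agent.P092.RC Vale.Agent.P092.H820 Vale.Agent.P092.H574

section plane

variable {k : Type} [NontriviallyNormedField k]

/-- [C-LGEO] -/
theorem lgeoC [ProperSpace k] [IsUltrametricDist k] :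
    LGeo (cc : GG k 2 → YY k 2 → PG k 2) ln (inc : Set (YY k 2 × LL k)) :=
  lgeo H200.Coc.continuous_sct

/-- the coordinates of the direction of `v` seen from `y` -/
noncomputable def dv (y : YY k 2) (v : Fin 3 → k) : Fin 2 → k := fun j => ((sct y)⁻¹ *ᵥ v) j.succ

theorem rt_perp (w : Fin 3 → k) : w ⬝ᵥ rt (fun j : Fin 2 => w j.succ) = 0 := by
  rw [rt_apply]
  simp [dotProduct, Fin.sum_univ_three]
  ring

/-- the point `v` is on the line through `y` with the direction `dv y v` -/
theorem dv_perp (y : YY k 2) (v : Fin 3 → k) : v ⬝ᵥ Ly y (dv y v) = 0 := by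
  rw [Ly_apply, Matrix.mulVec_transpose, dotProduct_comm, ← Matrix.dotProduct_mulVec,
    dotProduct_comm]
  exact rt_perp _

theorem dv_eq_zero {y : YY k 2} {v : Fin 3 → k} (hv : v ≠ 0) :
    dv y v = 0 ↔ (mk k v hv : YY k 2) = y := by
  constructor
  · intro h
    have h1 : (sct y)⁻¹ *ᵥ v = (((sct y)⁻¹ *ᵥ v) 0) • Pi.single 0 1 := by
      funext i
      refine Fin.cases ?_ (fun j => ?_) i
      · simp
      · have := congrFun h j
        simp only [dv, Pi.zero_apply] at this
        rw [this]
        simp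
    have h2 : v = (((sct y)⁻¹ *ᵥ v) 0) • nv y := by
      rw [← sct_col, ← Matrix.mulVec_smul, ← h1, Matrix.mulVec_mulVec, sct_mul_inv,
        Matrix.one_mulVec]
    have h3 : (mk k v hv : YY k 2) = mk k (nv y) (nv_ne y) := by
      rw [mk_eq_mk_iff']
      exact ⟨_, h2.symm⟩
    rw [h3, mk_nv]
  · intro h
    have h1 : (mk k v hv : YY k 2) = mk k (nv y) (nv_ne y) := by rw [h, mk_nv]
    rw [mk_eq_mk_iff'] at h1
    obtain ⟨c, hc⟩ := h1
    funext j
    have : (sct y)⁻¹ *ᵥ v = c • Pi.single 0 1 := by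
      rw [← hc, Matrix.mulVec_smul, ← sct_col, Matrix.mulVec_mulVec, sct_inv_mul,
        Matrix.one_mulVec]
    simp only [dv, this]
    simp

/-- the join of `y` and `v` -/
theorem dv_join (y : YY k 2) (v : Fin 3 → k) (hv : v ≠ 0) (hd : dv y v ≠ 0) :
    ((mk k v hv : YY k 2), ln y (mk k (dv y v) hd)) ∈ inc := by
  rw [ln_mk]
  exact dv_perp y v

end plane

end Vale.Agent.P092.H791
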