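import Vale.Agent.P092.H584.FD
import Vale.Agent.P092.H575.Uni
import Vale.Agent.P092.RC.Cc

/-!
P092, TEAM C, block [C-COCPT] (helper791): torsion free congruence subgroups in characteristic
zero; lattices of `SL_(m+1)(k)` are cocompact.
-/

set_option linter.all false

open Matrix Topology

namespace Vale.Agent.P092.H791

open Vale.Agent.P092.H575 Vale.Agent.P092.H584 Vale.Agent.P092.RC

section tf

variable {k : Type*} [NormedField k] [IsUltrametricDist k] {n : Type*} [Fintype n] [DecidableEq n]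

/-- The norm of a prime is at least the norm of the residue prime. -/
theorem norm_prime {p : ℕ} (hp : p.Prime) (hp1 : ‖(p : k)‖ < 1) {l : ℕ} (hl : l.Prime) :
    ‖(p : k)‖ ≤ ‖(l : k)‖ := by
  by_cases h : l = p
  · rw [h]
  · have hc : Nat.Coprime l p := (Nat.coprime_primes hl hp).2 h
    have hb : (1 : ℤ) = l * Nat.gcdA l p + p * Nat.gcdB l p := by
      have := Nat.gcd_eq_gcd_ab l p
      rw [hc] at this
      exact_mod_cast this
    have hb' : (1 : k) = (l : k) * (Nat.gcdA l p : k) + (p : k) * (Nat.gcdB l p : k) := by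
      exact_mod_cast congrArg (Int.cast : ℤ → k) hb
    by_contra hlt
    push Not at hlt
    have h1 : ‖(l : k) * (Nat.gcdA l p : k)‖ < 1 := by
      rw [norm_mul]
      calc _ ≤ ‖(l : k)‖ * 1 := mul_le_mul_of_nonneg_left
            (IsUltrametricDist.norm_intCast_le_one k _) (norm_nonneg _)
        _ < 1 := by rw [mul_one]; exact hlt.trans hp1
    have h2 : ‖(p : k) * (Nat.gcdB l p : k)‖ < 1 := by
      rw [norm_mul]
      calc _ ≤ ‖(p : k)‖ * 1 := mul_le_mul_of_nonneg_left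
            (IsUltrametricDist.norm_intCast_le_one k _) (norm_nonneg _)
        _ < 1 := by rw [mul_one]; exact hp1
    have h3 : ‖(1 : k)‖ < 1 := by
      rw [hb']
      exact (IsUltrametricDist.norm_add_le_max _ _).trans_lt (max_lt h1 h2)
    rw [norm_one] at h3
    exact lt_irrefl _ h3

/-- prime torsion -/
theorem tf_prime {p : ℕ} (hp : p.Prime) (hp0 : (p : k) ≠ 0) (hp1 : ‖(p : k)‖ < 1)
    {X : Matrix n n k} (hX : Cl X (‖(p : k)‖ ^ 2)) {l : ℕ} (hl : l.Prime) (h : (1 + X) ^ l = 1) :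
    X = 0 := by
  classical
  by_contra hne
  obtain ⟨i₀, j₀, hij⟩ : ∃ i j, X i j ≠ 0 := by
    by_contra hc
    push Not at hc
    exact hne (Matrix.ext hc)
  have : Nonempty (n × n) := ⟨(i₀, j₀)⟩
  obtain ⟨⟨i, j⟩, hm⟩ := Finite.exists_max fun q : n × n => ‖X q.1 q.2‖
  have hr : Cl X ‖X i j‖ := fun a b => hm (a, b)
  have hr0 : 0 < ‖X i j‖ := (norm_pos_iff.2 hij).trans_le (hm (i₀, j₀))
  have hpn : 0 < ‖(p : k)‖ := norm_pos_iff.2 hp0
  have hr1 : ‖X i j‖ ≤ ‖(p : k)‖ ^ 2 := hX i j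
  have hr2 : ‖X i j‖ ≤ 1 := hr1.trans (pow_le_one₀ hpn.le hp1.le)
  have h1 := cl_pow hr0.le hr2 hr l i j
  rw [h, sub_self, zero_sub, Matrix.neg_apply, norm_neg, Matrix.smul_apply, smul_eq_mul,
    norm_mul] at h1
  have h2 : ‖(l : k)‖ ≤ ‖X i j‖ := le_of_mul_le_mul_right h1 hr0
  have h3 := norm_prime hp hp1 hl
  have h4 : ‖(p : k)‖ ^ 2 < ‖(p : k)‖ := by nlinarith
  linarith

/-- it is enough to look at prime orders -/
theorem tf_of_prime {G : Type*} [Group G] {U : Subgroup G}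
    (h : ∀ u ∈ U, ∀ l : ℕ, l.Prime → u ^ l = 1 → u = 1) : TF U := by
  intro u hu n
  induction n using Nat.strong_induction_on with
  | _ n ih =>
    intro hn hun
    by_cases h1 : n = 1
    · rw [h1, pow_one] at hun
      exact hun
    · have hp := Nat.minFac_prime h1
      obtain ⟨c, hc⟩ := Nat.minFac_dvd n
      have hc0 : c ≠ 0 := by
        rintro rfl
        rw [mul_zero] at hc
        exact hn hc
      have hcn : c < n := by
        have h2 : 1 * c < n.minFac * c := Nat.mul_lt_mul_of_pos_right hp.one_lt (Nat.pos_of_ne_zero hc0)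
        rw [← hc, one_mul] at h2
        exact h2
      refine ih c hcn hc0 ?_
      refine h _ (U.pow_mem hu c) n.minFac hp ?_
      rw [← pow_mul, mul_comm, ← hc, hun]

/-- The congruence subgroups of level `≥ 2` are torsion free. -/
theorem tf_Kc {p : ℕ} (hp : p.Prime) (hp0 : (p : k) ≠ 0) (hp1 : ‖(p : k)‖ < 1) (m : ℕ) :
    TF (Kc p k n m) := by
  refine tf_of_prime fun u hu l hl h => ?_
  have hu' := (mem_Kc hp1).1 (Kc_mono (Nat.zero_le m) hu)
  have h1 : u.1 - 1 = 0 := by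
    refine tf_prime hp hp0 hp1 hu' hl ?_
    rw [add_sub_cancel, ← Units.val_pow_eq_pow_val, h, Units.val_one]
  exact Units.ext (sub_eq_zero.1 h1)

end tf

section sl

variable {k : Type} [NontriviallyNormedField k] [ProperSpace k] [IsUltrametricDist k] [CharZero k]

/-- **Torsion free compact open subgroups**, arbitrarily small. -/
theorem exists_tf (n : Type) [Fintype n] [DecidableEq n] {V : Set (SpecialLinearGroup n k)}
    (hV : V ∈ 𝓝 (1 : SpecialLinearGroup n k)) : ∃ U : Subgroup (SpecialLinearGroup n k),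
      IsOpen (U : Set (SpecialLinearGroup n k)) ∧ IsCompact (U : Set (SpecialLinearGroup n k)) ∧
      TF U ∧ (U : Set (SpecialLinearGroup n k)) ⊆ V := by
  obtain ⟨p, hp, hp1⟩ := exists_prime k
  have hp0 : (p : k) ≠ 0 := by exact_mod_cast hp.ne_zero
  have hcl : IsClosedEmbedding (SpecialLinearGroup.toGL : SpecialLinearGroup n k → GL n k) :=
    SpecialLinearGroup.isClosedEmbedding_toGL
  rw [hcl.isInducing.nhds_eq_comap, Filter.mem_comap, map_one] at hV
  obtain ⟨W, hW, hWV⟩ := hV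
  obtain ⟨m, hm⟩ := Kc_basis (n := n) hp1 hW
  refine ⟨(Kc p k n m).comap SpecialLinearGroup.toGL, ?_, ?_, ?_, ?_⟩
  · exact (Kc_isOpen hp0 m).preimage hcl.continuous
  · exact hcl.isCompact_preimage (Kc_isCompact hp0 m)
  · intro u hu c hc h
    refine SpecialLinearGroup.toGL_injective ?_
    rw [map_one]
    refine tf_Kc hp hp0 hp1 m _ hu c hc ?_
    rw [← map_pow, h, map_one]
  · exact fun u hu => hWV (hm hu)

variable {m : ℕ} {Γ : Type} [Group Γ]

omit [CharZero k] [IsUltrametricDist k] in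
theorem lcGG : LocallyCompactSpace (GG k m) := by
  have h1 : LocallyCompactSpace (Matrix (Fin (m + 1)) (Fin (m + 1)) k) :=
    inferInstanceAs (LocallyCompactSpace (Fin (m + 1) → Fin (m + 1) → k))
  have h2 : IsClosedEmbedding (Subtype.val : GG k m → Matrix (Fin (m + 1)) (Fin (m + 1)) k) := by
    refine IsClosed.isClosedEmbedding_subtypeVal ?_
    exact isClosed_singleton.preimage (f := fun A : Matrix (Fin (m + 1)) (Fin (m + 1)) k => A.det)
      (continuous_id.matrix_det)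
  exact h2.locallyCompactSpace

omit [CharZero k] [IsUltrametricDist k] in
theorem scGG : SecondCountableTopology (GG k m) := by
  have h1 : SecondCountableTopology (Matrix (Fin (m + 1)) (Fin (m + 1)) k) :=
    inferInstanceAs (SecondCountableTopology (Fin (m + 1) → Fin (m + 1) → k))
  exact TopologicalSpace.Subtype.secondCountableTopology _

theorem lat_of_emb {q : Γ →* GG k m} (hq : Emb q) : H515.IsLattice q.range :=
  ⟨hq.lat.disc, hq.lat.covol⟩

/-- **Lattices are cocompact** (characteristic zero): exact compact open fundamental domain. -/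
theorem exists_dom {q : Γ →* GG k m} (hq : Emb q) : ∃ Ω : Set (GG k m), IsOpen Ω ∧ IsCompact Ω ∧
    ∀ g : GG k m, ∃! γ : Γ, g * q γ ∈ Ω := by
  have h01 := lcGG (k := k) (m := m)
  have h02 := scGG (k := k) (m := m)
  obtain ⟨U, hU, hc, ht, -⟩ := exists_tf (k := k) (Fin (m + 1)) Filter.univ_mem
  obtain ⟨F, Ω, -, h1, h2, -, h3, -⟩ := exists_om (lat_of_emb hq) hU hc ht
  refine ⟨Ω, h1, h2, fun g => ?_⟩
  obtain ⟨v, hv, hv'⟩ := h3 g
  obtain ⟨γ, hγ⟩ := v.2
  refine ⟨γ, ?_, fun γ' h' => ?_⟩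
  · change g * q γ ∈ Ω
    rw [hγ]
    exact hv
  · have h4 := hv' ⟨q γ', γ', rfl⟩ h'
    have h5 : q γ' = q γ := by rw [hγ, ← h4]
    exact hq.inj h5

/-- **Lattices are cocompact**: `G = Ω · q(Γ) = q(Γ) · Ω'`. -/
theorem cocpt {q : Γ →* GG k m} (hq : Emb q) : ∃ Ω : Set (GG k m), IsCompact Ω ∧
    (∀ g : GG k m, ∃ γ : Γ, ∃ x ∈ Ω, g = x * q γ) ∧
    ∀ g : GG k m, ∃ γ : Γ, ∃ x ∈ Ω, g = q γ * x := by
  obtain ⟨Ω, -, h1, h2⟩ := exists_dom hq
  refine ⟨Ω ∪ Ω⁻¹, h1.union h1.inv, fun g => ?_, fun g => ?_⟩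
  · obtain ⟨γ, hγ, -⟩ := h2 g
    refine ⟨γ⁻¹, g * q γ, Or.inl hγ, ?_⟩
    rw [map_inv, mul_assoc, mul_inv_cancel, mul_one]
  · obtain ⟨γ, hγ, -⟩ := h2 g⁻¹
    refine ⟨γ, (g⁻¹ * q γ)⁻¹, Or.inr (Set.inv_mem_inv.2 hγ), ?_⟩
    rw [_root_.mul_inv_rev, inv_inv, mul_inv_cancel_left]

end sl

end Vale.Agent.P092.H791
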