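import Vale.Agent.P092.H791.Plane
import Vale.Agent.P092.H574.DelR

/-!
P092, TEAM C, block [C-LGEO] (helper791): the concrete geometry of lines of the plane satisfies
`RC.LGeo`.
-/

set_option linter.all false

open scoped LinearAlgebra.Projectivization
open Matrix TopologicalSpace Projectivization

namespace Vale.Agent.P092.H791

open Vale.Agent.P092.RC Vale.Agent.P092.H820 Vale.Agent.P092.H574

section sec

variable {k : Type} [NontriviallyNormedField k] {m : ℕ}

theorem ix_spec (v : Fin (m + 1) → k) (j : Fin (m + 1)) : ‖v j‖ ≤ ‖v (ix v)‖ := by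
  classical
  have hne : (Finset.univ.filter fun i => ∀ j, ‖v j‖ ≤ ‖v i‖).Nonempty := by
    obtain ⟨i, hi⟩ := Finite.exists_max fun i => ‖v i‖
    exact ⟨i, Finset.mem_filter.2 ⟨Finset.mem_univ _, hi⟩⟩
  have h : ix v ∈ (Finset.univ.filter fun i => ∀ j, ‖v j‖ ≤ ‖v i‖) := by
    unfold ix
    rw [dif_pos (by convert hne)]
    convert Finset.min'_mem _ hne
  exact (Finset.mem_filter.1 h).2 j

theorem ix_ne {v : Fin (m + 1) → k} (hv : v ≠ 0) : v (ix v) ≠ 0 := by
  intro h
  apply hv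
  funext j
  have := ix_spec v j
  rw [h, norm_zero] at this
  exact norm_eq_zero.1 (le_antisymm this (norm_nonneg _))

theorem nv_ix (y : YY k m) : nv y (ix y.rep) = 1 := div_self (ix_ne y.rep_nonzero)

theorem nv_ne (y : YY k m) : nv y ≠ 0 := by
  intro h
  have := congrFun h (ix y.rep)
  rw [nv_ix] at this
  exact one_ne_zero this

theorem nv_eq (y : YY k m) : nv y = (y.rep (ix y.rep))⁻¹ • y.rep := by
  funext j
  simp [nv, div_eq_inv_mul]

theorem mk_nv (y : YY k m) : mk k (nv y) (nv_ne y) = y := by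
  conv_rhs => rw [← y.mk_rep]
  rw [mk_eq_mk_iff']
  exact ⟨_, (nv_eq y).symm⟩

theorem sct_col (y : YY k m) : sct y *ᵥ (Pi.single 0 1) = nv y := by
  funext a
  simp [sct]

theorem nv_smul (g : GG k m) (y : YY k m) : ∃ c : k, c ≠ 0 ∧ g.1 *ᵥ nv y = c • nv (g • y) := by
  have h1 : mk k (g • nv y) ((smul_ne_zero_iff_ne g).2 (nv_ne y)) = g • y := by
    conv_rhs => rw [← mk_nv y]
    rfl
  have h2 := mk_nv (g • y)
  rw [← h2, mk_eq_mk_iff] at h1
  obtain ⟨c, hc⟩ := h1
  exact ⟨c, c.ne_zero, hc.symm⟩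

end sec

section plane

variable {k : Type} [NontriviallyNormedField k]

theorem det_sct (y : YY k 2) : (sct y).det ≠ 0 := by
  have h := nv_ix y
  have e : ∀ a, sct y a 0 = nv y a := fun a => rfl
  have e1 : ∀ a, sct y a 1 = if a = (ix y.rep).succAbove 0 then 1 else 0 := fun a => rfl
  have e2 : ∀ a, sct y a 2 = if a = (ix y.rep).succAbove 1 then 1 else 0 := fun a => rfl
  rw [Matrix.det_fin_three]
  simp only [e, e1, e2]
  generalize ix y.rep = i at h ⊢
  fin_cases i <;> simp at h <;> simp [h, Fin.succAbove, Fin.ext_iff] 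

theorem isUnit_sct (y : YY k 2) : IsUnit (sct y).det := (det_sct y).isUnit

theorem sct_mul_inv (y : YY k 2) : sct y * (sct y)⁻¹ = 1 := Matrix.mul_nonsing_inv _ (isUnit_sct y)

theorem sct_inv_mul (y : YY k 2) : (sct y)⁻¹ * sct y = 1 := Matrix.nonsing_inv_mul _ (isUnit_sct y)

/-- the matrix in the frames of the section -/
noncomputable def NN (g : GG k 2) (y : YY k 2) : Matrix (Fin 3) (Fin 3) k :=
  (sct (g • y))⁻¹ * g.1 * sct y

theorem NN_col (g : GG k 2) (y : YY k 2) : ∃ c : k, NN g y *ᵥ (Pi.single 0 1) = c • Pi.single 0 1 := by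
  obtain ⟨c, _, hc⟩ := nv_smul g y
  refine ⟨c, ?_⟩
  unfold NN
  rw [← Matrix.mulVec_mulVec, sct_col, ← Matrix.mulVec_mulVec, hc, Matrix.mulVec_smul,
    ← sct_col, Matrix.mulVec_mulVec, sct_inv_mul, Matrix.one_mulVec]

theorem NN_10 (g : GG k 2) (y : YY k 2) : NN g y 1 0 = 0 := by
  obtain ⟨c, hc⟩ := NN_col g y
  have := congrFun hc 1
  simpa using this

theorem NN_20 (g : GG k 2) (y : YY k 2) : NN g y 2 0 = 0 := by
  obtain ⟨c, hc⟩ := NN_col g y
  have := congrFun hc 2
  simpa using this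

theorem NN_det (g : GG k 2) (y : YY k 2) : (NN g y).det ≠ 0 := by
  unfold NN
  rw [Matrix.det_mul, Matrix.det_mul, g.2, mul_one]
  have h : ((sct (g • y))⁻¹).det ≠ 0 := by
    intro h0
    have := congrArg Matrix.det (sct_inv_mul (g • y))
    rw [Matrix.det_mul, h0, zero_mul, Matrix.det_one] at this
    exact zero_ne_one this
  exact mul_ne_zero h (det_sct y)

theorem blk_apply (g : GG k 2) (y : YY k 2) (i j : Fin 2) : blk g y i j = NN g y i.succ j.succ := rfl

theorem blk_det (g : GG k 2) (y : YY k 2) : (blk g y).det ≠ 0 := by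
  intro h
  apply NN_det g y
  rw [Matrix.det_fin_two] at h
  simp only [blk_apply] at h
  change NN g y 1 1 * NN g y 2 2 - NN g y 1 2 * NN g y 2 1 = 0 at h
  rw [Matrix.det_fin_three, NN_10, NN_20]
  linear_combination NN g y 0 0 * h

theorem blk_unit (g : GG k 2) (y : YY k 2) : IsUnit (blk g y) :=
  (Matrix.isUnit_iff_isUnit_det _).2 (blk_det g y).isUnit

theorem cc_eq (g : GG k 2) (y : YY k 2) : cc g y = mkG (blk_unit g y).unit := by
  unfold cc
  rw [dif_pos (blk_unit g y)]
  rfl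

/-- the action of `PGL₂` on the directions -/
noncomputable instance actD : MulAction (PG k 2) (P1 k) where
  smul x p := pm x p
  one_smul p := by
    change pm (1 : PG k 2) p = p
    rw [map_one]; rfl
  mul_smul x y p := pm_mul x y p

theorem actD_eq (x : PG k 2) (p : P1 k) : x • p = pm x p := rfl

theorem actD_mk (g : GL (Fin 2) k) (p : P1 k) : (mkG g : PG k 2) • p = g • p := rfl

instance csD : ContinuousSMul (PG k 2) (P1 k) where
  continuous_smul := by
    have hq : IsOpenQuotientMap (Prod.map (mkG (k := k)) (id : P1 k → P1 k)) :=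
      (QuotientGroup.isOpenQuotientMap_mk (N := Subgroup.center (GL (Fin 2) k))).prodMap
        IsOpenQuotientMap.id
    rw [← hq.continuous_comp_iff]
    have h1 : Continuous fun p : GL (Fin 2) k × P1 k => p.1 • p.2 := continuous_smul
    exact h1

/-- rotation -/
def rt : (Fin 2 → k) →ₗ[k] (Fin 3 → k) where
  toFun d := ![0, -d 1, d 0]
  map_add' d e := by
    funext i
    fin_cases i <;> simp
    ring
  map_smul' c d := by
    funext i
    fin_cases i <;> simp

theorem rt_apply (d : Fin 2 → k) : rt d = ![0, -d 1, d 0] := rfl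

theorem rt_inj : Function.Injective (rt (k := k)) := by
  intro d e h
  funext i
  have h1 := congrFun h 1
  have h2 := congrFun h 2
  simp only [rt_apply] at h1 h2
  fin_cases i
  · simpa using h2
  · simpa using h1

/-- the covector of the line through `y` with direction `d` -/
noncomputable def Ly (y : YY k 2) : (Fin 2 → k) →ₗ[k] (Fin 3 → k) :=
  (Matrix.mulVecLin ((sct y)⁻¹)ᵀ) ∘ₗ rt

theorem Ly_apply (y : YY k 2) (d : Fin 2 → k) : Ly y d = ((sct y)⁻¹)ᵀ *ᵥ rt d := rfl

theorem Ly_inj (y : YY k 2) : Function.Injective (Ly y) := by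
  intro d e h
  apply rt_inj
  rw [Ly_apply, Ly_apply] at h
  have := congrArg (fun v => (sct y)ᵀ *ᵥ v) h
  simp only [Matrix.mulVec_mulVec, ← Matrix.transpose_mul, sct_inv_mul, Matrix.transpose_one,
    Matrix.one_mulVec] at this
  exact this

/-- the line through `y` with direction `d` in the frame of the section -/
noncomputable def ln (y : YY k 2) (d : P1 k) : LL k := Projectivization.map (Ly y) (Ly_inj y) d

theorem ln_mk (y : YY k 2) (d : Fin 2 → k) (hd : d ≠ 0) :
    ln y (mk k d hd) = mk k (Ly y d) ((map_ne_zero_iff _ (Ly_inj y)).2 hd) := rfl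

theorem Ly_perp (y : YY k 2) (d : Fin 2 → k) : nv y ⬝ᵥ Ly y d = 0 := by
  rw [Ly_apply, Matrix.mulVec_transpose, dotProduct_comm, ← Matrix.dotProduct_mulVec, ← sct_col,
    Matrix.mulVec_mulVec, sct_inv_mul, Matrix.one_mulVec]
  simp [rt_apply]

theorem inc_mk (v w : Fin 3 → k) (hv : v ≠ 0) (hw : w ≠ 0) :
    (((mk k v hv : ℙ k (Fin 3 → k)) : YY k 2), ((mk k w hw : ℙ k (Fin 3 → k)) : LL k)) ∈ inc ↔
      v ⬝ᵥ w = 0 := Iff.rfl

theorem ln_mem (y : YY k 2) (d : P1 k) : (y, ln y d) ∈ inc := by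
  induction d using Projectivization.ind with
  | h d hd =>
    have h := (inc_mk (nv y) (Ly y d) (nv_ne y) ((map_ne_zero_iff _ (Ly_inj y)).2 hd)).2
      (Ly_perp y d)
    rw [mk_nv] at h
    exact h

theorem ln_ex (y : YY k 2) (l : LL k) (h : (y, l) ∈ inc) : ∃ d, ln y d = l := by
  obtain ⟨w, rfl⟩ := pj_surj (k := k) (ι := Fin 3) l
  have h1 : nv y ⬝ᵥ w.1 = 0 := by
    have h2 := h
    rw [← mk_nv y] at h2
    exact (inc_mk (nv y) w.1 (nv_ne y) w.2).1 h2
  let u : Fin 3 → k := (sct y)ᵀ *ᵥ w.1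
  have hw : w.1 = ((sct y)⁻¹)ᵀ *ᵥ u := by
    simp only [u]
    rw [Matrix.mulVec_mulVec, ← Matrix.transpose_mul, sct_mul_inv, Matrix.transpose_one,
      Matrix.one_mulVec]
  have hu0 : u 0 = 0 := by
    have : u 0 = u ⬝ᵥ Pi.single 0 1 := by simp
    rw [this]
    simp only [u]
    rw [Matrix.mulVec_transpose, ← Matrix.dotProduct_mulVec, sct_col, dotProduct_comm, h1]
  let d : Fin 2 → k := ![u 2, -u 1]
  have hd : rt d = u := by
    rw [rt_apply]
    funext i
    fin_cases i
    · simp [hu0]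
    · simp [d]
    · simp [d]
  have hd0 : d ≠ 0 := by
    intro h0
    apply w.2
    rw [hw, ← hd, h0, map_zero, Matrix.mulVec_zero]
  refine ⟨mk k d hd0, ?_⟩
  rw [ln_mk]
  change mk k (Ly y d) _ = mk k w.1 w.2
  congr 1
  rw [Ly_apply, hd, ← hw]

theorem ln_inj (y : YY k 2) (d d' : P1 k) (h : ln y d = ln y d') : d = d' :=
  Projectivization.map_injective (Ly y) (Ly_inj y) h

theorem NN_rt (g : GG k 2) (y : YY k 2) (d : Fin 2 → k) :
    (NN g y)ᵀ *ᵥ rt (blk g y *ᵥ d) = (blk g y).det • rt d := by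
  have e1 : (blk g y *ᵥ d) 0 = NN g y 1 1 * d 0 + NN g y 1 2 * d 1 := by
    simp [Matrix.mulVec, dotProduct, Fin.sum_univ_two, blk_apply]
  have e2 : (blk g y *ᵥ d) 1 = NN g y 2 1 * d 0 + NN g y 2 2 * d 1 := by
    simp [Matrix.mulVec, dotProduct, Fin.sum_univ_two, blk_apply]
  have e3 : (blk g y).det = NN g y 1 1 * NN g y 2 2 - NN g y 1 2 * NN g y 2 1 := by
    rw [Matrix.det_fin_two]; rfl
  rw [rt_apply, rt_apply, e1, e2, e3]
  funext i
  fin_cases i
  · simp [Matrix.mulVec, dotProduct, Fin.sum_univ_three, NN_10, NN_20]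
  · simp [Matrix.mulVec, dotProduct, Fin.sum_univ_three]
    ring
  · simp [Matrix.mulVec, dotProduct, Fin.sum_univ_three]
    ring

theorem ct_Ly (g : GG k 2) (y : YY k 2) (d : Fin 2 → k) :
    (blk g y).det • ((ct g).1 *ᵥ Ly y d) = Ly (g • y) (blk g y *ᵥ d) := by
  have hg : g.1 * (g⁻¹).1 = 1 := by
    have : (g * g⁻¹ : GG k 2).1 = 1 := by rw [mul_inv_cancel]; rfl
    exact this
  have h2 : NN g y * ((sct y)⁻¹ * (g⁻¹).1) = (sct (g • y))⁻¹ := by
    unfold NN
    calc (sct (g • y))⁻¹ * g.1 * sct y * ((sct y)⁻¹ * (g⁻¹).1)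
        = (sct (g • y))⁻¹ * g.1 * (sct y * (sct y)⁻¹) * (g⁻¹).1 := by simp only [Matrix.mul_assoc]
      _ = (sct (g • y))⁻¹ * (g.1 * (g⁻¹).1) := by
          rw [sct_mul_inv, Matrix.mul_one, Matrix.mul_assoc]
      _ = _ := by rw [hg, Matrix.mul_one]
  rw [Ly_apply (g • y), ← h2, Matrix.transpose_mul, ← Matrix.mulVec_mulVec, NN_rt,
    Matrix.mulVec_smul, Ly_apply, Matrix.mulVec_mulVec, ct_val, Matrix.transpose_mul]

theorem ln_eqv (g : GG k 2) (y : YY k 2) (d : P1 k) : g • ln y d = ln (g • y) (cc g y • d) := by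
  induction d using Projectivization.ind with
  | h d hd =>
    rw [cc_eq]
    have hB : blk g y *ᵥ d ≠ 0 := by
      intro h0
      apply hd
      have := congrArg (fun v => (blk g y)⁻¹ *ᵥ v) h0
      simp only [Matrix.mulVec_mulVec, Matrix.nonsing_inv_mul _ (blk_det g y).isUnit,
        Matrix.one_mulVec, Matrix.mulVec_zero] at this
      exact this
    have h1 : (mkG (blk_unit g y).unit : PG k 2) • (mk k d hd : P1 k) = mk k (blk g y *ᵥ d) hB := rfl
    rw [h1, ln_mk, ln_mk]
    refine (mk_eq_mk_iff' k ((ct g).1 *ᵥ Ly y d) _ _ _).2 ⟨((blk g y).det)⁻¹, ?_⟩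
    rw [← ct_Ly, smul_smul, inv_mul_cancel₀ (blk_det g y), one_smul]

theorem ln_continuous (hs : Continuous (sct : YY k 2 → Matrix (Fin 3) (Fin 3) k)) :
    Continuous fun p : YY k 2 × P1 k => ln p.1 p.2 := by
  have hq : IsOpenQuotientMap (Prod.map (id : YY k 2 → YY k 2) (pj k (Fin 2))) :=
    IsOpenQuotientMap.id.prodMap pj_oq
  rw [← hq.continuous_comp_iff]
  have hinv : Continuous fun y : YY k 2 => (sct y)⁻¹ := by
    have h1 : (fun y : YY k 2 => (sct y)⁻¹) = fun y => ((sct y).det)⁻¹ • (sct y).adjugate := by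
      funext y
      rw [Matrix.inv_def, Ring.inverse_eq_inv']
    rw [h1]
    exact (hs.matrix_det.inv₀ fun y => det_sct y).smul hs.matrix_adjugate
  have hc : Continuous fun p : YY k 2 × {v : Fin 2 → k // v ≠ 0} => Ly p.1 p.2.1 := by
    have h2 : Continuous fun p : YY k 2 × {v : Fin 2 → k // v ≠ 0} => ((sct p.1)⁻¹)ᵀ :=
      (hinv.comp continuous_fst).matrix_transpose
    have h3 : Continuous fun p : YY k 2 × {v : Fin 2 → k // v ≠ 0} => rt p.2.1 := by
      have h4 : Continuous fun p : YY k 2 × {v : Fin 2 → k // v ≠ 0} => p.2.1 :=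
        continuous_subtype_val.comp continuous_snd
      have h5 : ∀ i, Continuous fun p : YY k 2 × {v : Fin 2 → k // v ≠ 0} => p.2.1 i := fun i =>
        (continuous_apply i).comp h4
      refine continuous_pi fun i => ?_
      fin_cases i
      · exact continuous_const
      · exact (h5 1).neg
      · exact h5 0
    exact h2.matrix_mulVec h3
  exact pj_continuous.comp (Continuous.subtype_mk hc fun p =>
    (map_ne_zero_iff _ (Ly_inj p.1)).2 p.2.2)

/-- [C-LGEO] -/
theorem lgeo [ProperSpace k] [IsUltrametricDist k]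
    (hs : Continuous (sct : YY k 2 → Matrix (Fin 3) (Fin 3) k)) :
    LGeo (cc : GG k 2 → YY k 2 → PG k 2) ln (inc : Set (YY k 2 × LL k)) where
  cptD := inferInstance
  t2D := inferInstance
  tdD := inferInstance
  cptL := inferInstance
  t2L := inferInstance
  tdL := inferInstance
  cactD := continuous_smul
  cactL := continuous_smul
  cont := ln_continuous hs
  closed := inc_closed
  mem := ln_mem
  ex := ln_ex
  inj := ln_inj
  eqv := ln_eqv
  smul g y l h := (inc_smul g y l).2 h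
  join := join
  uniq := uniq

end plane

end Vale.Agent.P092.H791
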